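import Vale.Agent.P355.Bdl.B1

namespace Vale.Agent.Results.P355.NoSymmetry

open Vale.Agent.P355

/-- `U` maps every line spanned by a column of `A` to a line spanned by a column of `C`. -/
def MapsLines (U A C : M6) : Prop :=
  ∀ k, ∃ l, ∃ z : ℂ, ∀ r, (U * A) r k = z * C r l

/-- `U` and `V` carry every basis `B i` to one and the same basis `B (p i)`. -/
def SameAction {n : ℕ} (B : Fin n → M6) (U V : M6) : Prop :=
  ∃ p : Fin n → Fin n, ∀ i, MapsLines U (B i) (B (p i)) ∧ MapsLines V (B i) (B (p i))

/-- At least four mutually unbiased bases of `ℂ⁶` have only scalar unitary symmetries; a unitary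
permuting the bases is determined, up to a scalar, by its permutation of the bases. -/
theorem result {n : ℕ} (hn : 4 ≤ n) (B : Fin n → M6) (hB : IsMUBs B) :
    (∀ U, IsSymmetry B U → IsMultiple U 1) ∧
    (∀ U V, Unitary6 U → Unitary6 V → SameAction B U V → IsMultiple U V) := by
  refine ⟨fun U hU => matrix_scalar hn hB hU, ?_⟩
  rintro U V hU hV ⟨p, hp⟩
  -- the unitary `Vᴴ U` preserves every basis
  have hVV : V * V.conjTranspose = 1 := mul_eq_one_comm.1 hV
  have hW : IsSymmetry B (V.conjTranspose * U) := by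
    refine ⟨?_, fun i => preserves_of_maps (hB.1 i) (hB.1 _) hV (hp i).1 (hp i).2⟩
    unfold Unitary6
    rw [Matrix.conjTranspose_mul, Matrix.conjTranspose_conjTranspose, Matrix.mul_assoc,
      ← Matrix.mul_assoc V, hVV, Matrix.one_mul, hU]
  obtain ⟨c, hc⟩ := matrix_scalar hn hB hW
  refine ⟨c, ?_⟩
  calc U = V * (V.conjTranspose * U) := by rw [← Matrix.mul_assoc, hVV, Matrix.one_mul]
    _ = c • V := by rw [hc, Matrix.mul_smul, Matrix.mul_one]

end Vale.Agent.Results.P355.NoSymmetry
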